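import Mathlib

/-!
P254, unconditional bodies (note 10580 of helper929), block 1: the one-dimensional regression
operator `P` (least concave majorant of the primitive, i.e. projection on the nonincreasing
functions) and its properties.
-/

namespace Vale.Agent.P254.UC

open Set MeasureTheory intervalIntegral Filter Topology

noncomputable section

/-- Average of `w` over the segment from `a` to `b`. -/
def avg (w : ℝ → ℝ) (a b : ℝ) : ℝ := ∫ r in (0 : ℝ)..1, w (a + (b - a) * r)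

/-- `P w t = max_{s ∈ [t,1]} min_{s' ∈ [0,t]} avg w s' s`. -/
def P (w : ℝ → ℝ) (t : ℝ) : ℝ :=
  ⨆ β : Icc (0 : ℝ) 1, ⨅ α : Icc (0 : ℝ) 1, avg w (t * α) (t + (1 - t) * β)

theorem seg_mem {a b r : ℝ} (ha : a ∈ Icc (0 : ℝ) 1) (hb : b ∈ Icc (0 : ℝ) 1)
    (hr : r ∈ Icc (0 : ℝ) 1) : a + (b - a) * r ∈ Icc (0 : ℝ) 1 := by
  obtain ⟨h1, h2⟩ := ha
  obtain ⟨h3, h4⟩ := hb
  obtain ⟨h5, h6⟩ := hr
  constructor <;> nlinarith [mul_nonneg h1 (sub_nonneg.2 h6), mul_nonneg h3 h5,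
    mul_nonneg (sub_nonneg.2 h2) (sub_nonneg.2 h6), mul_nonneg (sub_nonneg.2 h4) h5]

theorem left_mem {t α : ℝ} (ht : t ∈ Icc (0 : ℝ) 1) (hα : α ∈ Icc (0 : ℝ) 1) :
    t * α ∈ Icc (0 : ℝ) t := by
  obtain ⟨h1, h2⟩ := ht
  obtain ⟨h3, h4⟩ := hα
  constructor <;> nlinarith [mul_nonneg h1 h3, mul_nonneg h1 (sub_nonneg.2 h4)]

theorem right_mem {t β : ℝ} (ht : t ∈ Icc (0 : ℝ) 1) (hβ : β ∈ Icc (0 : ℝ) 1) :
    t + (1 - t) * β ∈ Icc t 1 := by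
  obtain ⟨h1, h2⟩ := ht
  obtain ⟨h3, h4⟩ := hβ
  constructor <;> nlinarith [mul_nonneg (sub_nonneg.2 h2) h3,
    mul_nonneg (sub_nonneg.2 h2) (sub_nonneg.2 h4)]

theorem exists_left {t s : ℝ} (hs : s ∈ Icc (0 : ℝ) t) :
    ∃ α ∈ Icc (0 : ℝ) 1, t * α = s := by
  rcases eq_or_lt_of_le (hs.1.trans hs.2) with h | h
  · refine ⟨0, by simp, ?_⟩
    have : s = 0 := le_antisymm (h ▸ hs.2) hs.1
    simp [this]
  · refine ⟨s / t, ⟨div_nonneg hs.1 h.le, (div_le_one h).2 hs.2⟩, ?_⟩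
    field_simp

theorem exists_right {t s : ℝ} (hs : s ∈ Icc t 1) :
    ∃ β ∈ Icc (0 : ℝ) 1, t + (1 - t) * β = s := by
  rcases eq_or_lt_of_le (hs.1.trans hs.2) with h | h
  · refine ⟨0, by simp, ?_⟩
    have : s = t := le_antisymm (h ▸ hs.2) hs.1
    simp [this]
  · have h' : 0 < 1 - t := sub_pos.2 h
    refine ⟨(s - t) / (1 - t), ⟨div_nonneg (sub_nonneg.2 hs.1) h'.le,
      (div_le_one h').2 (by linarith [hs.2])⟩, ?_⟩
    field_simp
    ring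

theorem avg_int {w : ℝ → ℝ} (hw : Continuous w) (a b : ℝ) :
    IntervalIntegrable (fun r => w (a + (b - a) * r)) volume 0 1 :=
  (hw.comp (by fun_prop)).intervalIntegrable _ _

/-- General comparison of averages along two segments. -/
theorem avg_le_avg {w v : ℝ → ℝ} (hw : Continuous w) (hv : Continuous v) {a b a' b' d : ℝ}
    (h : ∀ r ∈ Icc (0 : ℝ) 1, w (a + (b - a) * r) ≤ v (a' + (b' - a') * r) + d) :
    avg w a b ≤ avg v a' b' + d := by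
  have h1 : avg w a b ≤ ∫ r in (0 : ℝ)..1, (v (a' + (b' - a') * r) + d) := by
    refine intervalIntegral.integral_mono_on zero_le_one (avg_int hw a b)
      ((avg_int hv a' b').add intervalIntegrable_const) h
  rw [intervalIntegral.integral_add (avg_int hv a' b') intervalIntegrable_const] at h1
  simpa [avg] using h1

theorem avg_le_const {w : ℝ → ℝ} (hw : Continuous w) {a b M : ℝ}
    (h : ∀ r ∈ Icc (0 : ℝ) 1, w (a + (b - a) * r) ≤ M) : avg w a b ≤ M := by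
  have := avg_le_avg (v := fun _ => 0) (a' := 0) (b' := 0) (d := M) hw continuous_const
    (by simpa using h)
  simpa [avg] using this

theorem const_le_avg {w : ℝ → ℝ} (hw : Continuous w) {a b M : ℝ}
    (h : ∀ r ∈ Icc (0 : ℝ) 1, M ≤ w (a + (b - a) * r)) : M ≤ avg w a b := by
  have := avg_le_avg (w := fun _ => 0) (v := w) (a := 0) (b := 0) (a' := a) (b' := b) (d := -M)
    continuous_const hw (fun r hr => by linarith [h r hr])
  have h2 : avg (fun _ => (0 : ℝ)) 0 0 = 0 := by simp [avg]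
  linarith

theorem exists_bound {w : ℝ → ℝ} (hw : Continuous w) :
    ∃ M, 0 ≤ M ∧ ∀ x ∈ Icc (0 : ℝ) 1, |w x| ≤ M := by
  obtain ⟨M, hM⟩ := isCompact_Icc.exists_bound_of_continuousOn (s := Icc (0 : ℝ) 1)
    hw.continuousOn
  exact ⟨M, (norm_nonneg _).trans (hM 0 (by simp)), fun x hx => by simpa using hM x hx⟩

theorem avg_bound {w : ℝ → ℝ} (hw : Continuous w) {M : ℝ}
    (hM : ∀ x ∈ Icc (0 : ℝ) 1, |w x| ≤ M) {a b : ℝ} (ha : a ∈ Icc (0 : ℝ) 1)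
    (hb : b ∈ Icc (0 : ℝ) 1) : |avg w a b| ≤ M := by
  rw [abs_le]
  exact ⟨const_le_avg hw fun r hr => (abs_le.1 (hM _ (seg_mem ha hb hr))).1,
    avg_le_const hw fun r hr => (abs_le.1 (hM _ (seg_mem ha hb hr))).2⟩

theorem bdd_inf {w : ℝ → ℝ} (hw : Continuous w) {t : ℝ} (ht : t ∈ Icc (0 : ℝ) 1)
    (β : Icc (0 : ℝ) 1) :
    BddBelow (range fun α : Icc (0 : ℝ) 1 => avg w (t * α) (t + (1 - t) * β)) := by
  obtain ⟨M, -, hM⟩ := exists_bound hw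
  refine ⟨-M, ?_⟩
  rintro _ ⟨α, rfl⟩
  have h1 := left_mem ht α.2
  have h2 := right_mem ht β.2
  exact (abs_le.1 (avg_bound hw hM ⟨h1.1, h1.2.trans ht.2⟩ ⟨ht.1.trans h2.1, h2.2⟩)).1

theorem bdd_sup {w : ℝ → ℝ} (hw : Continuous w) {t : ℝ} (ht : t ∈ Icc (0 : ℝ) 1) :
    BddAbove (range fun β : Icc (0 : ℝ) 1 =>
      ⨅ α : Icc (0 : ℝ) 1, avg w (t * α) (t + (1 - t) * β)) := by
  obtain ⟨M, -, hM⟩ := exists_bound hw
  refine ⟨M, ?_⟩
  rintro _ ⟨β, rfl⟩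
  refine (ciInf_le (bdd_inf hw ht β) ⟨0, by simp⟩).trans ?_
  have h1 := left_mem ht (show (0 : ℝ) ∈ Icc (0 : ℝ) 1 by simp)
  have h2 := right_mem ht β.2
  exact (abs_le.1 (avg_bound hw hM ⟨h1.1, h1.2.trans ht.2⟩ ⟨ht.1.trans h2.1, h2.2⟩)).2

theorem lt_P {w : ℝ → ℝ} (hw : Continuous w) {t c : ℝ} (ht : t ∈ Icc (0 : ℝ) 1)
    (h : c < P w t) :
    ∃ β ∈ Icc (0 : ℝ) 1, ∀ α ∈ Icc (0 : ℝ) 1, c < avg w (t * α) (t + (1 - t) * β) := by
  obtain ⟨β, hβ⟩ := exists_lt_of_lt_ciSup h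
  exact ⟨β, β.2, fun α hα => hβ.trans_le (ciInf_le (bdd_inf hw ht β) ⟨α, hα⟩)⟩

theorem le_P {w : ℝ → ℝ} (hw : Continuous w) {t c β : ℝ} (ht : t ∈ Icc (0 : ℝ) 1)
    (hβ : β ∈ Icc (0 : ℝ) 1)
    (h : ∀ α ∈ Icc (0 : ℝ) 1, c ≤ avg w (t * α) (t + (1 - t) * β)) : c ≤ P w t :=
  le_ciSup_of_le (bdd_sup hw ht) ⟨β, hβ⟩ (le_ciInf fun α => h α α.2)

theorem lt_P' {w : ℝ → ℝ} (hw : Continuous w) {t c : ℝ} (ht : t ∈ Icc (0 : ℝ) 1)
    (h : c < P w t) : ∃ s ∈ Icc t 1, ∀ s' ∈ Icc 0 t, c < avg w s' s := by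
  obtain ⟨β, hβ, h1⟩ := lt_P hw ht h
  refine ⟨_, right_mem ht hβ, fun s' hs' => ?_⟩
  obtain ⟨α, hα, rfl⟩ := exists_left hs'
  exact h1 α hα

theorem le_P' {w : ℝ → ℝ} (hw : Continuous w) {t c s : ℝ} (ht : t ∈ Icc (0 : ℝ) 1)
    (hs : s ∈ Icc t 1) (h : ∀ s' ∈ Icc 0 t, c ≤ avg w s' s) : c ≤ P w t := by
  obtain ⟨β, hβ, rfl⟩ := exists_right hs
  exact le_P hw ht hβ fun α hα => h _ (left_mem ht hα)

theorem P_le' {w : ℝ → ℝ} (hw : Continuous w) {t c : ℝ} (ht : t ∈ Icc (0 : ℝ) 1)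
    (h : ∀ s ∈ Icc t 1, ∃ s' ∈ Icc 0 t, avg w s' s ≤ c) : P w t ≤ c := by
  by_contra hc
  obtain ⟨s, hs, h1⟩ := lt_P' hw ht (not_le.1 hc)
  obtain ⟨s', hs', h2⟩ := h s hs
  exact absurd (h1 s' hs') (not_lt.2 h2)

/-- `w ≤ v + d` on `[0,1]` implies `P w ≤ P v + d`. -/
theorem P_le_add {w v : ℝ → ℝ} (hw : Continuous w) (hv : Continuous v) {d : ℝ}
    (h : ∀ x ∈ Icc (0 : ℝ) 1, w x ≤ v x + d) {t : ℝ} (ht : t ∈ Icc (0 : ℝ) 1) :
    P w t ≤ P v t + d := by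
  refine le_of_forall_lt fun c hc => ?_
  obtain ⟨c', hc1, hc2⟩ := exists_between hc
  refine hc1.trans_le ?_
  obtain ⟨β, hβ, h1⟩ := lt_P hw ht hc2
  have : c' - d ≤ P v t := by
    refine le_P hv ht hβ fun α hα => ?_
    have h2 := avg_le_avg (a := t * α) (b := t + (1 - t) * β) (a' := t * α)
      (b' := t + (1 - t) * β) (d := d) hw hv fun r hr => h _ (seg_mem
      ⟨(left_mem ht hα).1, (left_mem ht hα).2.trans ht.2⟩
      ⟨ht.1.trans (right_mem ht hβ).1, (right_mem ht hβ).2⟩ hr)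
    linarith [h1 α hα]
  linarith

theorem P_mono {w v : ℝ → ℝ} (hw : Continuous w) (hv : Continuous v)
    (h : ∀ x ∈ Icc (0 : ℝ) 1, w x ≤ v x) {t : ℝ} (ht : t ∈ Icc (0 : ℝ) 1) :
    P w t ≤ P v t := by
  simpa using P_le_add hw hv (d := 0) (by simpa using h) ht

theorem P_congr {w v : ℝ → ℝ} (hw : Continuous w) (hv : Continuous v)
    (h : ∀ x ∈ Icc (0 : ℝ) 1, w x = v x) {t : ℝ} (ht : t ∈ Icc (0 : ℝ) 1) :
    P w t = P v t :=
  le_antisymm (P_mono hw hv (fun x hx => (h x hx).le) ht)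
    (P_mono hv hw (fun x hx => (h x hx).ge) ht)

theorem P_dist {w v : ℝ → ℝ} (hw : Continuous w) (hv : Continuous v) {d : ℝ}
    (h : ∀ x ∈ Icc (0 : ℝ) 1, |w x - v x| ≤ d) {t : ℝ} (ht : t ∈ Icc (0 : ℝ) 1) :
    |P w t - P v t| ≤ d := by
  rw [abs_le]
  have h1 := P_le_add hw hv (fun x hx => by linarith [(abs_le.1 (h x hx)).2]) ht
  have h2 := P_le_add hv hw (fun x hx => by linarith [(abs_le.1 (h x hx)).1]) ht
  constructor <;> linarith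

/-- Modulus of continuity is preserved. -/
theorem P_modulus {w : ℝ → ℝ} (hw : Continuous w) {δ ω : ℝ}
    (h : ∀ x ∈ Icc (0 : ℝ) 1, ∀ y ∈ Icc (0 : ℝ) 1, |x - y| ≤ δ → w x ≤ w y + ω)
    {t t' : ℝ} (ht : t ∈ Icc (0 : ℝ) 1) (ht' : t' ∈ Icc (0 : ℝ) 1) (hd : |t - t'| ≤ δ) :
    P w t ≤ P w t' + ω := by
  refine le_of_forall_lt fun c hc => ?_
  obtain ⟨c', hc1, hc2⟩ := exists_between hc
  refine hc1.trans_le ?_
  obtain ⟨β, hβ, h1⟩ := lt_P hw ht hc2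
  have : c' - ω ≤ P w t' := by
    refine le_P hw ht' hβ fun α hα => ?_
    have h2 := avg_le_avg (a := t * α) (b := t + (1 - t) * β) (a' := t' * α)
      (b' := t' + (1 - t') * β) (d := ω) hw hw fun r hr => ?_
    · linarith [h1 α hα]
    · refine h _ (seg_mem
        ⟨(left_mem ht hα).1, (left_mem ht hα).2.trans ht.2⟩
        ⟨ht.1.trans (right_mem ht hβ).1, (right_mem ht hβ).2⟩ hr) _ (seg_mem
        ⟨(left_mem ht' hα).1, (left_mem ht' hα).2.trans ht'.2⟩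
        ⟨ht'.1.trans (right_mem ht' hβ).1, (right_mem ht' hβ).2⟩ hr) ?_
      have e : t * α + (t + (1 - t) * β - t * α) * r
          - (t' * α + (t' + (1 - t') * β - t' * α) * r)
          = (t - t') * (α * (1 - r) + r * (1 - β)) := by ring
      rw [e, abs_mul]
      obtain ⟨ha1, ha2⟩ := hα
      obtain ⟨hb1, hb2⟩ := hβ
      obtain ⟨hr1, hr2⟩ := hr
      have h3 : 0 ≤ α * (1 - r) + r * (1 - β) :=
        add_nonneg (mul_nonneg ha1 (sub_nonneg.2 hr2)) (mul_nonneg hr1 (sub_nonneg.2 hb2))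
      have h4 : α * (1 - r) + r * (1 - β) ≤ 1 := by
        nlinarith [mul_nonneg (sub_nonneg.2 ha2) (sub_nonneg.2 hr2), mul_nonneg hr1 hb1]
      rw [abs_of_nonneg h3]
      calc |t - t'| * (α * (1 - r) + r * (1 - β)) ≤ |t - t'| * 1 :=
            mul_le_mul_of_nonneg_left h4 (abs_nonneg _)
        _ ≤ δ := by rwa [mul_one]
  linarith

theorem P_lip {w : ℝ → ℝ} (hw : Continuous w) {L : ℝ}
    (h : ∀ x ∈ Icc (0 : ℝ) 1, ∀ y ∈ Icc (0 : ℝ) 1, |w x - w y| ≤ L * |x - y|) (hL : 0 ≤ L)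
    {t t' : ℝ} (ht : t ∈ Icc (0 : ℝ) 1) (ht' : t' ∈ Icc (0 : ℝ) 1) :
    |P w t - P w t'| ≤ L * |t - t'| := by
  have key : ∀ {t t' : ℝ}, t ∈ Icc (0 : ℝ) 1 → t' ∈ Icc (0 : ℝ) 1 →
      P w t ≤ P w t' + L * |t - t'| := by
    intro t t' ht ht'
    refine P_modulus (δ := |t - t'|) hw (fun x hx y hy hxy => ?_) ht ht' le_rfl
    have := (abs_le.1 (h x hx y hy)).2
    nlinarith [mul_le_mul_of_nonneg_left hxy hL]
  rw [abs_le]
  have h1 := key ht ht'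
  have h2 := key ht' ht
  rw [abs_sub_comm] at h2
  constructor <;> linarith

theorem P_antitoneOn {w : ℝ → ℝ} (hw : Continuous w) : AntitoneOn (P w) (Icc 0 1) := by
  intro t ht t' ht' htt
  refine le_of_forall_lt fun c hc => ?_
  obtain ⟨c', hc1, hc2⟩ := exists_between hc
  refine hc1.trans_le ?_
  obtain ⟨s, hs, h1⟩ := lt_P' hw ht' hc2
  exact le_P' hw ht ⟨htt.trans hs.1, hs.2⟩ fun s' hs' => (h1 s' ⟨hs'.1, hs'.2.trans htt⟩).le

theorem P_of_antitone {w : ℝ → ℝ} (hw : Continuous w) (h : AntitoneOn w (Icc 0 1)) {t : ℝ}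
    (ht : t ∈ Icc (0 : ℝ) 1) : P w t = w t := by
  refine le_antisymm (P_le' hw ht fun s hs => ⟨t, ⟨ht.1, le_rfl⟩, ?_⟩)
    (le_P' hw ht ⟨le_rfl, ht.2⟩ fun s' hs' => ?_)
  · refine avg_le_const hw fun r hr => h ht (seg_mem ht ⟨ht.1.trans hs.1, hs.2⟩ hr) ?_
    nlinarith [mul_nonneg (sub_nonneg.2 hs.1) hr.1]
  · refine const_le_avg hw fun r hr => h (seg_mem ⟨hs'.1, hs'.2.trans ht.2⟩ ht hr) ht ?_
    nlinarith [mul_nonneg (sub_nonneg.2 hs'.2) (sub_nonneg.2 hr.2)]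

/-- (1d) midpoint preservation for arbitrary continuous functions. -/
theorem P_mid {w w0 w1 : ℝ → ℝ} (hw : Continuous w) (hw0 : Continuous w0) (hw1 : Continuous w1)
    (h : ∀ s ∈ Icc (0 : ℝ) 1, ∀ t ∈ Icc (0 : ℝ) 1, (w0 s + w1 t) / 2 ≤ w ((s + t) / 2))
    {s t : ℝ} (hs : s ∈ Icc (0 : ℝ) 1) (ht : t ∈ Icc (0 : ℝ) 1) :
    (P w0 s + P w1 t) / 2 ≤ P w ((s + t) / 2) := by
  have hz : (s + t) / 2 ∈ Icc (0 : ℝ) 1 := by
    constructor <;> linarith [hs.1, hs.2, ht.1, ht.2]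
  refine le_of_forall_pos_le_add fun ε hε => ?_
  obtain ⟨s0, hs0, h0⟩ := lt_P' hw0 hs (show P w0 s - ε < P w0 s by linarith)
  obtain ⟨t0, ht0, h1⟩ := lt_P' hw1 ht (show P w1 t - ε < P w1 t by linarith)
  have key : (P w0 s + P w1 t) / 2 - ε ≤ P w ((s + t) / 2) := by
    refine le_P' (s := (s0 + t0) / 2) hw hz ⟨by linarith [hs0.1, ht0.1],
      by linarith [hs0.2, ht0.2]⟩ fun σ hσ => ?_
    -- σ = (s' + t') / 2
    obtain ⟨s', t', hs', ht', rfl⟩ : ∃ s' t' : ℝ, s' ∈ Icc 0 s ∧ t' ∈ Icc 0 t ∧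
        σ = (s' + t') / 2 := by
      rcases le_total (2 * σ) s with h2 | h2
      · exact ⟨2 * σ, 0, ⟨by linarith [hσ.1], h2⟩, ⟨le_rfl, ht.1⟩, by ring⟩
      · exact ⟨s, 2 * σ - s, ⟨hs.1, le_rfl⟩, ⟨by linarith, by linarith [hσ.2]⟩, by ring⟩
    have e0 := h0 s' hs'
    have e1 := h1 t' ht'
    have e2 : avg w0 s' s0 / 2 + avg w1 t' t0 / 2
        ≤ avg w ((s' + t') / 2) ((s0 + t0) / 2) := by
      have i0 := (avg_int hw0 s' s0).div_const 2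
      have i1 := (avg_int hw1 t' t0).div_const 2
      have : avg w0 s' s0 / 2 + avg w1 t' t0 / 2 = ∫ r in (0 : ℝ)..1,
          (w0 (s' + (s0 - s') * r) / 2 + w1 (t' + (t0 - t') * r) / 2) := by
        rw [intervalIntegral.integral_add i0 i1, intervalIntegral.integral_div,
          intervalIntegral.integral_div]
        rfl
      rw [this]
      refine intervalIntegral.integral_mono_on zero_le_one (i0.add i1) (avg_int hw _ _) ?_
      intro r hr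
      have h3 := h (s' + (s0 - s') * r) (seg_mem ⟨hs'.1, hs'.2.trans hs.2⟩
        ⟨hs.1.trans hs0.1, hs0.2⟩ hr) (t' + (t0 - t') * r) (seg_mem
        ⟨ht'.1, ht'.2.trans ht.2⟩ ⟨ht.1.trans ht0.1, ht0.2⟩ hr)
      have e : (s' + (s0 - s') * r + (t' + (t0 - t') * r)) / 2
          = (s' + t') / 2 + ((s0 + t0) / 2 - (s' + t') / 2) * r := by ring
      rw [e] at h3
      linarith
    linarith
  linarith

end

end Vale.Agent.P254.UC
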